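import Mathlib

/-!
# P123: the operator `D` with `D = γ (P + V D V*)`

For an isometry `V` of a complex Hilbert space, `P = 1 - V V*` and `|γ| < 1`, the map
`X ↦ γ (P + V X V*)` is a contraction of the bounded operators, and its fixed point `D` has
norm at most `|γ|`.
-/

namespace Vale.Agent.Lib.P123

variable {H : Type*} [NormedAddCommGroup H] [InnerProductSpace ℂ H] [CompleteSpace H]

theorem h23_norm_map (V : H →L[ℂ] H) (hV : star V * V = 1) (w : H) : ‖V w‖ = ‖w‖ := by
  have h : ContinuousLinearMap.adjoint V ∘L V = 1 := by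
    rw [← ContinuousLinearMap.star_eq_adjoint]
    exact hV
  exact (ContinuousLinearMap.norm_map_iff_adjoint_comp_self V).mpr h w

theorem h23_norm_le_one (V : H →L[ℂ] H) (hV : star V * V = 1) : ‖V‖ ≤ 1 :=
  ContinuousLinearMap.opNorm_le_bound V zero_le_one fun w => by
    rw [h23_norm_map V hV w, one_mul]

theorem h23_star_mul_P (V : H →L[ℂ] H) (hV : star V * V = 1) :
    star V * (1 - V * star V) = 0 := by
  rw [mul_sub, mul_one, ← mul_assoc, hV, one_mul, sub_self]

/-- The range of `P = 1 - V V*` is orthogonal to the range of `V`. -/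
theorem h23_inner_P_V (V : H →L[ℂ] H) (hV : star V * V = 1) (x y : H) :
    inner ℂ ((1 - V * star V) x) (V y) = 0 := by
  rw [← ContinuousLinearMap.adjoint_inner_left V y ((1 - V * star V) x),
    ← ContinuousLinearMap.star_eq_adjoint]
  have h : star V ((1 - V * star V) x) = (star V * (1 - V * star V)) x := rfl
  rw [h, h23_star_mul_P V hV]
  simp

theorem h23_norm_sq_split (V : H →L[ℂ] H) (hV : star V * V = 1) (x : H) :
    ‖x‖ * ‖x‖ = ‖(1 - V * star V) x‖ * ‖(1 - V * star V) x‖ + ‖star V x‖ * ‖star V x‖ := by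
  have hx : x = (1 - V * star V) x + V (star V x) := by
    have : (V * star V) x = V (star V x) := rfl
    simp [this]
  have h := norm_add_sq_eq_norm_sq_add_norm_sq_of_inner_eq_zero ((1 - V * star V) x)
    (V (star V x)) (h23_inner_P_V V hV x (star V x))
  rw [← hx, h23_norm_map V hV] at h
  exact h

theorem h23_norm_P_add_le (V : H →L[ℂ] H) (hV : star V * V = 1) (X : H →L[ℂ] H) :
    ‖(1 - V * star V) + V * X * star V‖ ≤ max 1 ‖X‖ := by
  have hm1 : (1 : ℝ) ≤ max 1 ‖X‖ := le_max_left _ _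
  have hmX : ‖X‖ ≤ max 1 ‖X‖ := le_max_right _ _
  have hm0 : (0 : ℝ) ≤ max 1 ‖X‖ := le_trans zero_le_one hm1
  refine ContinuousLinearMap.opNorm_le_bound _ hm0 fun x => ?_
  have hsplit := h23_norm_sq_split V hV x
  have happ : ((1 - V * star V) + V * X * star V) x =
      (1 - V * star V) x + V (X (star V x)) := rfl
  have horth := norm_add_sq_eq_norm_sq_add_norm_sq_of_inner_eq_zero ((1 - V * star V) x)
    (V (X (star V x))) (h23_inner_P_V V hV x (X (star V x)))
  rw [h23_norm_map V hV] at horth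
  have hX : ‖X (star V x)‖ ≤ ‖X‖ * ‖star V x‖ := X.le_opNorm _
  rw [happ]
  set a := ‖(1 - V * star V) x‖ with ha
  set s := ‖star V x‖ with hs
  set b := ‖X (star V x)‖ with hb
  set m := max 1 ‖X‖ with hm
  have ha0 : 0 ≤ a := norm_nonneg _
  have hs0 : 0 ≤ s := norm_nonneg _
  have hb0 : 0 ≤ b := norm_nonneg _
  have hbm : b ≤ m * s := hX.trans (mul_le_mul_of_nonneg_right hmX hs0)
  have hsq : ‖(1 - V * star V) x + V (X (star V x))‖ ^ 2 ≤ (m * ‖x‖) ^ 2 := by
    have h1 : b * b ≤ (m * s) * (m * s) := mul_le_mul hbm hbm hb0 (mul_nonneg hm0 hs0)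
    have h2 : a * a ≤ m * m * (a * a) := by
      have : 1 * (a * a) ≤ m * m * (a * a) :=
        mul_le_mul_of_nonneg_right (by nlinarith) (mul_nonneg ha0 ha0)
      linarith
    nlinarith [horth, hsplit]
  exact (pow_le_pow_iff_left₀ (norm_nonneg _) (mul_nonneg hm0 (norm_nonneg _))
    two_ne_zero).mp hsq

theorem h23_exists_D (V : H →L[ℂ] H) (hV : star V * V = 1) (γ : ℂ) (hγ : ‖γ‖ < 1) :
    ∃ D : H →L[ℂ] H, D = γ • ((1 - V * star V) + V * D * star V) ∧ ‖D‖ ≤ ‖γ‖ := by
  have hV1 : ‖V‖ ≤ 1 := h23_norm_le_one V hV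
  have hVs1 : ‖star V‖ ≤ 1 := by rw [norm_star]; exact hV1
  have hlip : ContractingWith ‖γ‖₊ (fun X : H →L[ℂ] H =>
      γ • ((1 - V * star V) + V * X * star V)) := by
    refine ⟨by exact_mod_cast hγ, LipschitzWith.of_dist_le_mul fun X Y => ?_⟩
    rw [dist_eq_norm, dist_eq_norm]
    have hdiff : γ • ((1 - V * star V) + V * X * star V) -
        γ • ((1 - V * star V) + V * Y * star V) = γ • (V * (X - Y) * star V) := by
      rw [← smul_sub]
      congr 1
      noncomm_ring
    rw [hdiff, norm_smul, coe_nnnorm]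
    have h1 : ‖V * (X - Y) * star V‖ ≤ ‖V‖ * ‖X - Y‖ * ‖star V‖ :=
      (norm_mul_le _ _).trans (mul_le_mul_of_nonneg_right (norm_mul_le _ _) (norm_nonneg _))
    have h2 : ‖V‖ * ‖X - Y‖ * ‖star V‖ ≤ 1 * ‖X - Y‖ * 1 :=
      mul_le_mul (mul_le_mul_of_nonneg_right hV1 (norm_nonneg _)) hVs1 (norm_nonneg _)
        (by positivity)
    have h3 : ‖V * (X - Y) * star V‖ ≤ ‖X - Y‖ := by linarith
    exact mul_le_mul_of_nonneg_left h3 (norm_nonneg γ)
  refine ⟨ContractingWith.fixedPoint _ hlip, ?_, ?_⟩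
  · exact (hlip.fixedPoint_isFixedPt).symm
  · set D := ContractingWith.fixedPoint _ hlip with hD
    have hfix : γ • ((1 - V * star V) + V * D * star V) = D := hlip.fixedPoint_isFixedPt
    have hb := h23_norm_P_add_le V hV D
    have hn : ‖D‖ = ‖γ‖ * ‖(1 - V * star V) + V * D * star V‖ := by
      conv_lhs => rw [← hfix]
      rw [norm_smul]
    have hle : ‖D‖ ≤ ‖γ‖ * max 1 ‖D‖ :=
      hn.le.trans (mul_le_mul_of_nonneg_left hb (norm_nonneg γ))
    rcases le_total ‖D‖ 1 with h1 | h1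
    · rw [max_eq_left h1, mul_one] at hle
      exact hle
    · rw [max_eq_right h1] at hle
      have hD0 : 0 < ‖D‖ := lt_of_lt_of_le zero_lt_one h1
      have : ‖γ‖ * ‖D‖ < 1 * ‖D‖ := mul_lt_mul_of_pos_right hγ hD0
      linarith

end Vale.Agent.Lib.P123
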