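import Mathlib

/-!
# P123: polynomials of `star U + γ U` for a unitary `U`

For a unitary element `U` of a complex C-star algebra, the element `star U + γ U` is normal and
every polynomial of it has norm at most the supremum of the polynomial over the curve
`star z + γ z`, `|z| = 1`.
-/

namespace Vale.Agent.Lib.P123

open Polynomial

theorem h23_isStarNormal_of_unitary {𝔄 : Type*} [CStarAlgebra 𝔄] {U : 𝔄}
    (hU : U ∈ unitary 𝔄) : IsStarNormal U :=
  ⟨by
    unfold Commute SemiconjBy
    rw [Unitary.star_mul_self_of_mem hU, Unitary.mul_star_self_of_mem hU]⟩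

theorem h23_norm_aeval_unitary_le {𝔄 : Type*} [CStarAlgebra 𝔄] {U : 𝔄}
    (hU : U ∈ unitary 𝔄) (γ : ℂ) (p : Polynomial ℂ) (M : ℝ)
    (hM : ∀ z : ℂ, ‖z‖ = 1 → ‖p.eval (star z + γ * z)‖ ≤ M) :
    ‖Polynomial.aeval (star U + γ • U) p‖ ≤ M := by
  have hn : IsStarNormal U := h23_isStarNormal_of_unitary hU
  have hM0 : 0 ≤ M := le_trans (norm_nonneg _) (hM 1 (by simp))
  have hN : star U + γ • U = cfc (fun z : ℂ => star z + γ * z) U := by
    rw [cfc_add (a := U) (fun z : ℂ => star z) (fun z : ℂ => γ * z), cfc_star_id (R := ℂ) U,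
      cfc_const_mul_id γ U]
  have hp : Polynomial.aeval (star U + γ • U) p =
      cfc (fun z : ℂ => p.eval (star z + γ * z)) U := by
    rw [hN, ← cfc_polynomial p (cfc (fun z : ℂ => star z + γ * z) U),
      ← cfc_comp (fun x : ℂ => p.eval x) (fun z : ℂ => star z + γ * z) U]
    rfl
  rw [hp]
  apply norm_cfc_le hM0
  intro z hz
  apply hM z
  have := spectrum.subset_circle_of_unitary hU hz
  simpa using this

end Vale.Agent.Lib.P123
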